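import Vale.Agent.P241.KR.Defs
import Vale.Agent.P241.BD.Cells
import Vale.Agent.P251.M.SeqSys

/-!
# P241: bases of `K`-homology: transport, suspension, even complexes
-/

open CategoryTheory MonoidalCategory Limits Pretriangulated ZeroObject MonObj
open Vale.Agent.P251.T Vale.Agent.P251.H Vale.Agent.P251.M Vale.Agent.P241.KR Vale.Agent.P241.BD

universe v u

set_option linter.unusedSectionVars false

namespace Vale.Agent.P241.H603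

variable {T : Type u} [Category.{v} T] [Preadditive T] [HasZeroObject T]
    [HasShift T ℤ] [∀ n : ℤ, (shiftFunctor T n).Additive] [Pretriangulated T]
    [MonoidalCategory T] [SymmetricCategory T] [TensorTriangulated T]

/-- a basis transported along an isomorphism -/
theorem exists_kbasis_iso {K X Y : T} [MonObj K] (f : X ≅ Y) {ι : Type} [Fintype ι]
    (b : KBasis K X ι) : ∃ b' : KBasis K Y ι, b'.e = b.e := by
  refine ⟨⟨b.e, fun i => b.x i ≫ K ◁ f.hom, fun j => ?_⟩, rfl⟩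
  have h1 : (fun c : (∀ i, ((𝟙_ T)⟦j⟧ ⟶ K ⊗ (𝟙_ T)⟦b.e i⟧)) =>
      ∑ i, c i ≫ lext (b.x i ≫ K ◁ f.hom)) =
      (fun y => y ≫ K ◁ f.hom) ∘ fun c => ∑ i, c i ≫ lext (b.x i) := by
    funext c
    simp only [Function.comp_apply, Preadditive.sum_comp, Category.assoc, FM.bind_whiskerLeft]
  rw [h1]
  refine Function.Bijective.comp ⟨fun y z h => ?_, fun y => ⟨y ≫ K ◁ f.inv, ?_⟩⟩ (b.bij j)
  · exact (cancel_mono (K ◁ f.hom)).1 h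
  · change (y ≫ K ◁ f.inv) ≫ K ◁ f.hom = y
    rw [Category.assoc, ← MonoidalCategory.whiskerLeft_comp, f.inv_hom_id,
      MonoidalCategory.whiskerLeft_id, Category.comp_id]

/-- a basis reindexed -/
theorem exists_kbasis_reindex {K X : T} [MonObj K] {ι κ : Type} [Fintype ι] [Fintype κ]
    (σ : κ ≃ ι) (b : KBasis K X ι) : ∃ b' : KBasis K X κ, b'.e = b.e ∘ σ := by
  refine ⟨⟨b.e ∘ σ, fun i => b.x (σ i), fun j => ?_⟩, rfl⟩
  have h1 : (fun c : (∀ i, ((𝟙_ T)⟦j⟧ ⟶ K ⊗ (𝟙_ T)⟦(b.e ∘ σ) i⟧)) =>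
      ∑ i, c i ≫ lext (b.x (σ i))) =
      (fun c => ∑ i, c i ≫ lext (b.x i)) ∘
        (Equiv.piCongrLeft (fun i => ((𝟙_ T)⟦j⟧ ⟶ K ⊗ (𝟙_ T)⟦b.e i⟧)) σ) := by
    funext c
    simp only [Function.comp_apply]
    rw [← Equiv.sum_comp σ]
    refine Finset.sum_congr rfl fun i _ => ?_
    rw [Equiv.piCongrLeft_apply_apply]
  rw [h1]
  exact (b.bij j).comp (Equiv.bijective _)

theorem isInv_of_sphere {Q : T} {q : ℤ} (hQ : Nonempty (Q ≅ (𝟙_ T)⟦q⟧)) : IsInv Q := by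
  obtain ⟨e⟩ := hQ
  exact IsInv.of_inverse (L' := (𝟙_ T)⟦-q⟧) (whiskerRightIso e _ ≪≫ tensorUnitShiftIso _ (-q) ≪≫
    (shiftFunctorCompIsoId T q (-q) (by ring)).app (𝟙_ T))

theorem bind_whiskerRight {K A X : T} [MonObj K] (x : A ⟶ K ⊗ X) (Q : T) :
    FM.bind ((x ▷ Q) ≫ (α_ K X Q).hom) =
      (α_ K A Q).inv ≫ (FM.bind x ▷ Q) ≫ (α_ K X Q).hom := by
  unfold FM.bind
  simp only [comp_whiskerRight, MonoidalCategory.whiskerLeft_comp, Category.assoc]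
  rw [← associator_inv_naturality_middle_assoc, associator_naturality_left]
  monoidal

theorem comp_bind {K A B X : T} [MonObj K] (f : A ⟶ B) (x : B ⟶ K ⊗ X) :
    FM.bind (f ≫ x) = (K ◁ f) ≫ FM.bind x := by
  unfold FM.bind
  simp only [MonoidalCategory.whiskerLeft_comp, Category.assoc]

/-- the suspension of a basis -/
theorem exists_kbasis_sphere {K X Q : T} [MonObj K] {q : ℤ} (hQ : Nonempty (Q ≅ (𝟙_ T)⟦q⟧))
    {ι : Type} [Fintype ι] (b : KBasis K X ι) :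
    ∃ b' : KBasis K (X ⊗ Q) ι, ∀ i, b'.e i = b.e i + q := by
  have hinv := isInv_of_sphere hQ
  obtain ⟨eQ⟩ := hQ
  let s : ∀ e : ℤ, (𝟙_ T)⟦e + q⟧ ≅ (𝟙_ T)⟦e⟧ ⊗ Q := fun e =>
    (shiftFunctorAdd' T e q (e + q) rfl).app (𝟙_ T) ≪≫ (tensorUnitShiftIso _ q).symm ≪≫
      whiskerLeftIso _ eQ.symm
  refine ⟨⟨fun i => b.e i + q, fun i => (s (b.e i)).hom ≫ (b.x i ▷ Q) ≫ (α_ K X Q).hom,
    fun j => ?_⟩, fun i => rfl⟩
  let t : (𝟙_ T)⟦j⟧ ≅ (𝟙_ T)⟦j - q⟧ ⊗ Q :=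
    (shiftFunctorAdd' T (j - q) q j (by ring)).app (𝟙_ T) ≪≫ (tensorUnitShiftIso _ q).symm ≪≫
      whiskerLeftIso _ eQ.symm
  -- reindexing of the coefficients
  let F : (∀ i, ((𝟙_ T)⟦j - q⟧ ⟶ K ⊗ (𝟙_ T)⟦b.e i⟧)) → ∀ i, ((𝟙_ T)⟦j⟧ ⟶ K ⊗ (𝟙_ T)⟦b.e i + q⟧) :=
    fun c i => t.hom ≫ (c i ▷ Q) ≫ (α_ K _ Q).hom ≫ K ◁ (s (b.e i)).inv
  have hconj : ∀ {A B B' : T} (w : B ⊗ Q ≅ B'), Function.Bijective
      fun c : ((𝟙_ T)⟦j - q⟧ ⟶ B) => t.hom ≫ (c ▷ Q) ≫ w.hom := by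
    intro A B B' w
    have h1 := whiskerRight_bijective Q ((𝟙_ T)⟦j - q⟧) B
    refine ⟨fun c c' h => h1.1 ?_, fun y => ?_⟩
    · exact (cancel_mono w.hom).1 ((cancel_epi t.hom).1 h)
    · obtain ⟨c, hc⟩ := h1.2 (t.inv ≫ y ≫ w.inv)
      refine ⟨c, ?_⟩
      change t.hom ≫ (c ▷ Q) ≫ w.hom = y
      rw [show c ▷ Q = t.inv ≫ y ≫ w.inv from hc]
      simp
  have hF : Function.Bijective F := by
    have h1 : ∀ i, Function.Bijective fun c : ((𝟙_ T)⟦j - q⟧ ⟶ K ⊗ (𝟙_ T)⟦b.e i⟧) =>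
        t.hom ≫ (c ▷ Q) ≫ (α_ K _ Q).hom ≫ K ◁ (s (b.e i)).inv := fun i =>
      hconj (A := 𝟙_ T) (α_ K _ Q ≪≫ whiskerLeftIso K (s (b.e i)).symm)
    exact Function.Bijective.piMap h1
  have hH : Function.Bijective fun y : ((𝟙_ T)⟦j - q⟧ ⟶ K ⊗ X) =>
      t.hom ≫ (y ▷ Q) ≫ (α_ K X Q).hom := hconj (A := 𝟙_ T) (α_ K X Q)
  have key : (fun c : (∀ i, ((𝟙_ T)⟦j⟧ ⟶ K ⊗ (𝟙_ T)⟦b.e i + q⟧)) =>
      ∑ i, c i ≫ lext ((s (b.e i)).hom ≫ (b.x i ▷ Q) ≫ (α_ K X Q).hom)) ∘ F =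
      (fun y : ((𝟙_ T)⟦j - q⟧ ⟶ K ⊗ X) => t.hom ≫ (y ▷ Q) ≫ (α_ K X Q).hom) ∘
        fun c => ∑ i, c i ≫ lext (b.x i) := by
    funext c
    simp only [Function.comp_apply, F]
    rw [sum_whiskerRight, Preadditive.sum_comp, Preadditive.comp_sum]
    refine Finset.sum_congr rfl fun i _ => ?_
    rw [lext, comp_bind, bind_whiskerRight]
    simp only [Category.assoc, comp_whiskerRight]
    rw [← MonoidalCategory.whiskerLeft_comp_assoc, Iso.inv_hom_id,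
      MonoidalCategory.whiskerLeft_id, Category.id_comp, Iso.hom_inv_id_assoc]
  have h2 := key ▸ (hH.comp (b.bij (j - q)))
  exact (Function.Bijective.of_comp_iff _ hF).1 h2

/-- a zero object has the empty basis -/
theorem exists_kbasis_zero {K X : T} [MonObj K] (hX : IsZero X) :
    ∃ b : KBasis K X (Fin 0), ∀ i, Even (b.e i) := by
  have h0 : IsZero (K ⊗ X) := by
    rw [IsZero.iff_id_eq_zero, ← MonoidalCategory.whiskerLeft_id,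
      (IsZero.iff_id_eq_zero X).mp hX, MonoidalPreadditive.whiskerLeft_zero]
  exact ⟨⟨fun i => i.elim0, fun i => i.elim0, fun j => ⟨fun c c' _ => funext fun i => i.elim0,
    fun y => ⟨fun i => i.elim0, h0.eq_of_tgt _ _⟩⟩⟩, fun i => i.elim0⟩

/-- the basis of a sphere -/
theorem exists_kbasis_unit (K : T) [MonObj K] (k : ℤ) :
    ∃ b : KBasis K ((𝟙_ T)⟦k⟧) (Fin 1), ∀ i, b.e i = k := by
  refine ⟨⟨fun _ => k, fun _ => FM.unit K _, fun j => ⟨fun c c' h => ?_, fun y => ⟨fun _ => y, ?_⟩⟩⟩,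
    fun _ => rfl⟩
  · simp only [lext, FM.bind_unit, Category.comp_id, Finset.univ_unique, Fin.default_eq_zero,
      Finset.sum_singleton] at h
    funext i
    rw [Subsingleton.elim i 0]
    exact h
  · simp only [lext, FM.bind_unit, Category.comp_id, Finset.univ_unique, Fin.default_eq_zero,
      Finset.sum_singleton]

/-- a basis from two families -/
theorem exists_kbasis_sum {K X : T} [MonObj K] {ι κ : Type} [Fintype ι] [Fintype κ] {e₁ : ι → ℤ}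
    {e₃ : κ → ℤ} (x₁ : ∀ i, (𝟙_ T)⟦e₁ i⟧ ⟶ K ⊗ X) (x₃ : ∀ k, (𝟙_ T)⟦e₃ k⟧ ⟶ K ⊗ X)
    (h : ∀ j : ℤ, Function.Bijective fun c : (∀ i, ((𝟙_ T)⟦j⟧ ⟶ K ⊗ (𝟙_ T)⟦e₁ i⟧)) ×
      (∀ k, ((𝟙_ T)⟦j⟧ ⟶ K ⊗ (𝟙_ T)⟦e₃ k⟧)) =>
        ∑ i, c.1 i ≫ lext (x₁ i) + ∑ k, c.2 k ≫ lext (x₃ k)) :
    ∃ b : KBasis K X (ι ⊕ κ), b.e = Sum.elim e₁ e₃ := by
  refine ⟨⟨Sum.elim e₁ e₃, fun i => Sum.rec
    (motive := fun i => (𝟙_ T)⟦Sum.elim e₁ e₃ i⟧ ⟶ K ⊗ X) x₁ x₃ i, fun j => ?_⟩, rfl⟩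
  have h1 := Function.Bijective.comp (h j)
    (Equiv.sumPiEquivProdPi (fun i => ((𝟙_ T)⟦j⟧ ⟶ K ⊗ (𝟙_ T)⟦Sum.elim e₁ e₃ i⟧))).bijective
  convert h1 using 1
  funext c
  exact Fintype.sum_sum_type _

/-- bases of extensions of even objects -/
theorem exists_kbasis_ext {K : T} [MonObj K] (Δ : Triangle T)
    (hΔ : Δ ∈ distTriang T) {ι κ : Type} [Fintype ι] [Fintype κ]
    (h1 : OddZero (K ⊗ Δ.obj₁)) (h3 : OddZero (K ⊗ Δ.obj₃))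
    (b₁ : KBasis K Δ.obj₁ ι) (b₃ : KBasis K Δ.obj₃ κ) (he₁ : ∀ i, Even (b₁.e i))
    (he₃ : ∀ i, Even (b₃.e i)) : ∃ b : KBasis K Δ.obj₂ (ι ⊕ κ), ∀ i, Even (b.e i) := by
  have D := TensorTriangulated.distinguished K Δ hΔ
  -- lifts of the basis of `K ⊗ Δ.obj₃`
  have hl : ∀ k, ∃ z : (𝟙_ T)⟦b₃.e k⟧ ⟶ K ⊗ Δ.obj₂, z ≫ K ◁ Δ.mor₂ = b₃.x k := by
    intro k
    obtain ⟨m, hm⟩ := even_iff_exists_two_mul.1 (he₃ k)
    obtain ⟨g, hg⟩ := Triangle.coyoneda_exact₃ _ D (b₃.x k)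
      (eq_zero_of_shift (2 * (m - 1) + 1) 1 (b₃.e k) (by omega) (h1 (m - 1)) _)
    exact ⟨g, hg.symm⟩
  choose z hz using hl
  have hinj : ∀ (j : ℤ) (y : (𝟙_ T)⟦j⟧ ⟶ K ⊗ Δ.obj₁), y ≫ K ◁ Δ.mor₁ = 0 → y = 0 := by
    intro j y hy
    rcases Int.even_or_odd' j with ⟨k, rfl | rfl⟩
    · obtain ⟨g, hg⟩ := Triangle.coyoneda_exact₂ _ (inv_rot_of_distTriang _ D) y hy
      have h0 : g = 0 := eq_zero_of_shift (2 * k + 1) (-1) (2 * k) (by ring) (h3 k) g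
      rw [hg, h0]
      exact zero_comp
    · exact h1 k y
  have hproj : ∀ {j : ℤ} (c : (∀ k, ((𝟙_ T)⟦j⟧ ⟶ K ⊗ (𝟙_ T)⟦b₃.e k⟧))),
      (∑ k, c k ≫ lext (z k)) ≫ K ◁ Δ.mor₂ = ∑ k, c k ≫ lext (b₃.x k) := by
    intro j c
    rw [Preadditive.sum_comp]
    refine Finset.sum_congr rfl fun k _ => ?_
    rw [Category.assoc, FM.bind_whiskerLeft, hz]
  have hleft : ∀ {j : ℤ} (c : (∀ i, ((𝟙_ T)⟦j⟧ ⟶ K ⊗ (𝟙_ T)⟦b₁.e i⟧))),
      ∑ i, c i ≫ lext (b₁.x i ≫ K ◁ Δ.mor₁) = (∑ i, c i ≫ lext (b₁.x i)) ≫ K ◁ Δ.mor₁ := by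
    intro j c
    rw [Preadditive.sum_comp]
    refine Finset.sum_congr rfl fun i _ => ?_
    rw [Category.assoc, FM.bind_whiskerLeft]
  have hcomp : (K ◁ Δ.mor₁) ≫ (K ◁ Δ.mor₂) = 0 := by
    rw [← MonoidalCategory.whiskerLeft_comp, comp_distTriang_mor_zero₁₂ _ hΔ,
      MonoidalPreadditive.whiskerLeft_zero]
  obtain ⟨b, hb⟩ := exists_kbasis_sum (fun i => b₁.x i ≫ K ◁ Δ.mor₁) z (fun j => by
    constructor
    · -- injectivity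
      have key : ∀ (c₁ : ∀ i, ((𝟙_ T)⟦j⟧ ⟶ K ⊗ (𝟙_ T)⟦b₁.e i⟧))
          (c₃ : ∀ k, ((𝟙_ T)⟦j⟧ ⟶ K ⊗ (𝟙_ T)⟦b₃.e k⟧)),
          ∑ i, c₁ i ≫ lext (b₁.x i ≫ K ◁ Δ.mor₁) + ∑ k, c₃ k ≫ lext (z k) = 0 →
            c₁ = 0 ∧ c₃ = 0 := by
        intro c₁ c₃ hc
        rw [hleft] at hc
        have h4 : ∑ k, c₃ k ≫ lext (b₃.x k) = 0 := by
          have h5 := congrArg (fun y => y ≫ K ◁ Δ.mor₂) hc
          simp only [Preadditive.add_comp, Category.assoc, hcomp, comp_zero, zero_add,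
            zero_comp] at h5
          rw [← h5]
          exact (hproj c₃).symm
        have h6 : c₃ = 0 := (b₃.bij j).1
          (h4.trans (Finset.sum_eq_zero fun k _ => zero_comp).symm)
        subst h6
        have h7 : (∑ i, c₁ i ≫ lext (b₁.x i)) = 0 := by
          refine hinj j _ ?_
          rw [← hc]
          exact (add_eq_left.2 (Finset.sum_eq_zero fun k _ => zero_comp)).symm
        exact ⟨(b₁.bij j).1 (h7.trans (Finset.sum_eq_zero fun k _ => zero_comp).symm), rfl⟩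
      rintro ⟨c₁, c₃⟩ ⟨c₁', c₃'⟩ h
      simp only at h
      obtain ⟨h5, h6⟩ := key (c₁ - c₁') (c₃ - c₃') (by
        simp only [Pi.sub_apply, Preadditive.sub_comp, Finset.sum_sub_distrib]
        rw [← sub_eq_zero] at h
        rw [← h]
        abel)
      rw [sub_eq_zero.1 h5, sub_eq_zero.1 h6]
    · -- surjectivity
      intro y
      obtain ⟨c₃, hc₃⟩ := (b₃.bij j).2 (y ≫ K ◁ Δ.mor₂)
      simp only at hc₃
      obtain ⟨w, hw⟩ : ∃ w : (𝟙_ T)⟦j⟧ ⟶ K ⊗ Δ.obj₁,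
          y - ∑ k, c₃ k ≫ lext (z k) = w ≫ K ◁ Δ.mor₁ :=
        Triangle.coyoneda_exact₂ _ D (y - ∑ k, c₃ k ≫ lext (z k)) (by
          change (y - ∑ k, c₃ k ≫ lext (z k)) ≫ K ◁ Δ.mor₂ = 0
          rw [Preadditive.sub_comp, hproj, hc₃, sub_self])
      obtain ⟨c₁, hc₁⟩ := (b₁.bij j).2 w
      simp only at hc₁
      refine ⟨(c₁, c₃), ?_⟩
      simp only
      rw [hleft, hc₁, ← hw]
      abel)
  exact ⟨b, fun i => by rw [hb]; cases i; exacts [he₁ _, he₃ _]⟩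

/-- **The homology of an even complex.** -/
theorem exists_kbasis_cl {K : T} [MonObj K] (hK : OddZero K) {s : Multiset ℤ} {X : T}
    (hX : Cl T s X) : ∃ b : KBasis K X (Fin s.card), ∀ i, Even (b.e i) := by
  induction hX with
  | zero X hX => exact exists_kbasis_zero hX
  | sphere k =>
    obtain ⟨b, hb⟩ := exists_kbasis_unit K (2 * k)
    obtain ⟨b', hb'⟩ := exists_kbasis_reindex (finCongr (Multiset.card_singleton k)) b
    exact ⟨b', fun i => by rw [hb', Function.comp_apply, hb]; exact even_two_mul k⟩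
  | @ext Δ hΔ s t h₁ h₃ ih₁ ih₃ =>
    obtain ⟨b₁, hb₁⟩ := ih₁
    obtain ⟨b₃, hb₃⟩ := ih₃
    obtain ⟨b, hb⟩ := exists_kbasis_ext Δ hΔ (hK.tensor_cl h₁) (hK.tensor_cl h₃) b₁ b₃ hb₁ hb₃
    obtain ⟨b', hb'⟩ := exists_kbasis_reindex
      ((finCongr (Multiset.card_add s t)).trans finSumFinEquiv.symm) b
    exact ⟨b', fun i => by rw [hb', Function.comp_apply]; exact hb _⟩

end Vale.Agent.P241.H603
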